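import Vale.Agent.P266.Cover.Main

namespace Vale.Agent.Results.P266.AbelianCover

open Vale.Agent.P266

universe u v

/-- Let `A` be a finitely generated integral `ℂ`-algebra with projective derivation module, acted on
by a finite commutative group `G`, and `m` a closed point fixed by `G` at which `A` is normal and
whose image in the quotient has a regular factorial local ring. Then `A` is regular at `m`. -/
theorem result (A : Type u) [CommRing A] [IsDomain A] [Algebra ℂ A] [Algebra.FiniteType ℂ A]
    (G : Type v) [CommGroup G] [Finite G] [MulSemiringAction G A] [SMulCommClass G ℂ A]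
    (hDer : Module.Projective A (Derivation ℂ A A)) (m : Ideal A) [m.IsMaximal]
    (hfix : ∀ (g : G) (a : A), a ∈ m → g • a ∈ m)
    (hnormal : IsIntegrallyClosed (Localization.AtPrime m))
    (hreg : IsRegularLocalRing
      (Localization.AtPrime (m.comap (algebraMap (FixedPoints.subalgebra ℂ A G) A))))
    (hufd : UniqueFactorizationMonoid
      (Localization.AtPrime (m.comap (algebraMap (FixedPoints.subalgebra ℂ A G) A)))) :
    IsRegularLocalRing (Localization.AtPrime m) :=
  Cover.regular_of_abelian_cover G hDer m hfix hnormal hreg hufd

end Vale.Agent.Results.P266.AbelianCover
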