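import Vale.Agent.P266.Cone.Main

namespace Vale.Agent.Results.P266.NormalTangentCone

open Vale.Agent.P266

universe u

/-- Let `A` be a finitely generated integral `ℂ`-algebra with projective derivation module, `m` a
closed point at which `A` has dimension two and the tangent cone is an integrally closed domain,
and `g 0, g 1` a minimal reduction of `m` at the point with reduction number at most `N`. If
`N ≤ 5`, or some derivation does not map `m` into `m ^ 2`, then `A` is regular at the point. -/
theorem result (A : Type u) [CommRing A] [IsDomain A] [Algebra ℂ A] [Algebra.FiniteType ℂ A]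
    (hDer : Module.Projective A (Derivation ℂ A A)) (m : Ideal A) [m.IsMaximal]
    (hd : ringKrullDim (Localization.AtPrime m) = 2)
    (hdom : IsDomain (↥(reesAlgebra m) ⧸ m.map (algebraMap A ↥(reesAlgebra m))))
    (hnormal : IsIntegrallyClosed (↥(reesAlgebra m) ⧸ m.map (algebraMap A ↥(reesAlgebra m))))
    (g : Fin 2 → A) (hgm : ∀ l, g l ∈ m) (N : ℕ)
    (hred : m ^ (N + 1) ≤ Ideal.span (Set.range g) * m ^ N ⊔ m ^ (N + 2))
    (hN : N ≤ 5 ∨ ∃ D : Derivation ℂ A A, ∃ z ∈ m, D z ∉ m ^ 2) :
    IsRegularLocalRing (Localization.AtPrime m) :=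
  @regular_of_normal_cone A _ _ _ _ m _ hdom hnormal hDer hd g hgm N hred hN

end Vale.Agent.Results.P266.NormalTangentCone
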