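import Vale.Agent.P266.Tangent

namespace Vale.Agent.Results.P266.SocleDegree

open Vale.Agent.P266

universe u

/-- Let `A` be a finitely generated integral `ℂ`-algebra whose derivation module is projective,
`x` a closed point, `d = dim A_x` and `ρ` the dimension of the space of values at `x` of all
derivations. Then no ideal generated by a system of parameters of `A_x` contains `m_x ^ (d - ρ)`. -/
theorem result (A : Type u) [CommRing A] [IsDomain A] [Algebra ℂ A] [Algebra.FiniteType ℂ A]
    (hDer : Module.Projective A (Derivation ℂ A A)) (m : Ideal A) [m.IsMaximal] (d : ℕ)
    (hd : ringKrullDim (Localization.AtPrime m) = d) (g : Fin d → A)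
    (hg : ((Ideal.span (Set.range g)).map (algebraMap A (Localization.AtPrime m))).radical =
      IsLocalRing.maximalIdeal (Localization.AtPrime m)) :
    ¬ (IsLocalRing.maximalIdeal (Localization.AtPrime m)) ^
        (d - Module.finrank ℂ (LinearMap.range (tangentEval m))) ≤
      (Ideal.span (Set.range g)).map (algebraMap A (Localization.AtPrime m)) :=
  not_pow_le_parameters hDer m d hd g hg

end Vale.Agent.Results.P266.SocleDegree
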