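import Vale.Agent.P266.Tangent

namespace Vale.Agent.Results.P266.StableParameterIdeal

open Vale.Agent.P266

universe u

/-- Let `A` be a finitely generated integral `ℂ`-algebra whose derivation module is projective,
let `x` be a closed point, `d = dim A_x`, and let a derivation `D` preserve the ideal of some
system of parameters of `A_x`. Then `D` vanishes at `x`, the rank of its linear part is at most
the dimension of the space of values at `x` of all derivations, and if the linear part is
surjective then `A_x` is regular. -/
theorem result (A : Type u) [CommRing A] [IsDomain A] [Algebra ℂ A] [Algebra.FiniteType ℂ A]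
    (hDer : Module.Projective A (Derivation ℂ A A)) (m : Ideal A) [m.IsMaximal] (d : ℕ)
    (hd : ringKrullDim (Localization.AtPrime m) = d) (g : Fin d → A)
    (hg : ((Ideal.span (Set.range g)).map (algebraMap A (Localization.AtPrime m))).radical =
      IsLocalRing.maximalIdeal (Localization.AtPrime m))
    (D : Derivation ℂ A A)
    (hD : ∀ l, algebraMap A (Localization.AtPrime m) (D (g l)) ∈
      (Ideal.span (Set.range g)).map (algebraMap A (Localization.AtPrime m))) :
    (∀ a, D a ∈ m) ∧
      Module.finrank ℂ (Submodule.span ℂ ((fun z ↦ Ideal.Quotient.mk (m ^ 2) (D z)) '' (m : Set A)))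
        ≤ Module.finrank ℂ (LinearMap.range (tangentEval m)) ∧
      (m ≤ Ideal.span (D '' (m : Set A)) ⊔ m ^ 2 →
        IsRegularLocalRing (Localization.AtPrime m)) :=
  stable_parameter_ideal hDer m d hd g hg D hD

end Vale.Agent.Results.P266.StableParameterIdeal
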